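import Vale.Agent.P167.H947.DT.Len
import Vale.Agent.P153.R2.DET.Defs

/-!
# P167, general `q`, [DT]: lower bound of the lengths of the images of half circles
-/

set_option autoImplicit false

namespace Vale.Agent.P167.H634.DT

open Set Metric Filter Topology
open scoped ENNReal Real
open Vale.Agent.P164 Vale.Agent.P153.R2.R1 Vale.Agent.P153.R2.HULL
open Vale.Agent.P153.R2.DET (Uni HC)
open Vale.Agent.P167.H947.DT (dist_arc_le)

variable {W : ℝ → ℝ}

/-- Distances and norms of the inverse flow. -/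
theorem invflow_bounds {a y : ℝ} (ha : 0 ≤ a) (hW : Continuous W) (hy : 0 < y) {w : ℂ}
    (hw : y ≤ w.im) : y ≤ (invflow W a w).im ∧
      ‖invflow W a w‖ ≤ ‖w‖ + |W a| + 2 / y * a := by
  have hw0 : 0 < w.im := hy.trans_le hw
  obtain ⟨g, hg⟩ := invflow_mem ha hW.continuousOn hw0
  have h1 := flow_invflow ha hW.continuousOn hw0
  rw [flow_eq ha hg] at h1
  have h2 : g a = w + (W a : ℂ) := by rw [← h1]; ring
  have h3 : (g a).im = w.im := by rw [h2]; simp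
  have h4 : ∀ s ∈ Icc 0 a, y ≤ (g s).im := fun s hs => by
    have := hg.im_le hs
    linarith
  have h0 := h4 0 ⟨le_rfl, ha⟩
  rw [hg.1] at h0
  refine ⟨h0, ?_⟩
  have h5 : ‖g a - g 0‖ ≤ 2 / y * ‖a - 0‖ :=
    (convex_Icc (0 : ℝ) a).norm_image_sub_le_of_norm_hasDerivWithin_le
      (f' := fun s => 2 / (g s - (W s : ℂ))) (fun s hs => (hg.2 s hs).2)
      (fun s hs => norm_field_le hy (h4 s hs) (W s)) ⟨le_rfl, ha⟩ ⟨ha, le_rfl⟩
  rw [sub_zero, Real.norm_of_nonneg ha, hg.1, h2] at h5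
  have h6 : invflow W a w = w + (W a : ℂ) - (w + (W a : ℂ) - invflow W a w) := by ring
  calc ‖invflow W a w‖ = ‖w + (W a : ℂ) - (w + (W a : ℂ) - invflow W a w)‖ := by rw [← h6]
    _ ≤ ‖w + (W a : ℂ)‖ + ‖w + (W a : ℂ) - invflow W a w‖ := norm_sub_le _ _
    _ ≤ (‖w‖ + ‖(W a : ℂ)‖) + 2 / y * a := add_le_add (norm_add_le _ _) h5
    _ = _ := by rw [Complex.norm_real, Real.norm_eq_abs]

theorem invflow_dist {a y : ℝ} (ha : 0 ≤ a) (hW : Continuous W) (hy : 0 < y) {w w' : ℂ}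
    (hw : y ≤ w.im) (hw' : y ≤ w'.im) :
    dist w w' ≤ dist (invflow W a w) (invflow W a w') * Real.exp (2 / y ^ 2 * a) := by
  have hw0 : 0 < w.im := hy.trans_le hw
  have hw0' : 0 < w'.im := hy.trans_le hw'
  obtain ⟨g, hg⟩ := invflow_mem ha hW.continuousOn hw0
  obtain ⟨g', hg'⟩ := invflow_mem ha hW.continuousOn hw0'
  have h1 := flow_invflow ha hW.continuousOn hw0
  have h1' := flow_invflow ha hW.continuousOn hw0'
  rw [flow_eq ha hg] at h1
  rw [flow_eq ha hg'] at h1'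
  have h2 : g a = w + (W a : ℂ) := by rw [← h1]; ring
  have h2' : g' a = w' + (W a : ℂ) := by rw [← h1']; ring
  have h3 : y ≤ (g a).im := by rw [h2]; simpa using hw
  have h3' : y ≤ (g' a).im := by rw [h2']; simpa using hw'
  have h4 := hg.dist_le hg' hy h3 h3' (s := a) ⟨ha, le_rfl⟩
  rwa [h2, h2', dist_add_right] at h4

/-- **Lower bound of the lengths.** -/
theorem len_low {ψ : ℂ → ℂ} {b : ℂ} (hψ : Uni ψ b) {ψn : ℕ → ℂ → ℂ}
    (hun : TendstoUniformlyOn ψn ψ atTop HC) (hd : ∀ n, DifferentiableOn ℂ (ψn n) UH)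
    {T R X ρ₁ ρ₂ : ℝ} (h1 : 0 < ρ₁) (h12 : ρ₁ ≤ ρ₂) :
    ∃ l₀ : ℝ, 0 < l₀ ∧ ∀ᶠ n in atTop, ∀ W : ℝ → ℝ, Continuous W → ∀ a ∈ Icc 0 T,
      (∀ u ∈ Icc 0 a, |W u| ≤ R) → ∀ x₀ : ℝ, |x₀| ≤ X → ∀ ρ ∈ Icc ρ₁ ρ₂,
        ENNReal.ofReal l₀ ≤ len UH (fun w => ψn n (invflow W a w)) x₀ ρ := by
  have hpi := Real.pi_pos
  set y : ℝ := ρ₁ / 2 with hy
  have hy0 : 0 < y := by positivity
  set B : ℝ := X + ρ₂ + R + 2 / y * T with hB
  set d : ℝ := y * Real.exp (-(2 / y ^ 2 * T)) with hdd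
  have hd0 : 0 < d := by positivity
  set K : Set (ℂ × ℂ) := {x | x.1 ∈ HC ∧ x.2 ∈ HC ∧ ‖x.1‖ ≤ B ∧ ‖x.2‖ ≤ B ∧ d ≤ dist x.1 x.2}
    with hK
  have hKc : IsCompact K := by
    have hsub : K ⊆ closedBall (0 : ℂ) B ×ˢ closedBall (0 : ℂ) B := fun x hx =>
      ⟨mem_closedBall_zero_iff.2 hx.2.2.1, mem_closedBall_zero_iff.2 hx.2.2.2.1⟩
    refine IsCompact.of_isClosed_subset
      ((isCompact_closedBall _ _).prod (isCompact_closedBall _ _)) ?_ hsub
    have e : K = {x : ℂ × ℂ | 0 ≤ x.1.im} ∩ ({x | 0 ≤ x.2.im} ∩ ({x | ‖x.1‖ ≤ B} ∩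
        ({x | ‖x.2‖ ≤ B} ∩ {x | d ≤ dist x.1 x.2}))) := by
      ext x
      rfl
    rw [e]
    refine (isClosed_le continuous_const (Complex.continuous_im.comp continuous_fst)).inter
      ((isClosed_le continuous_const (Complex.continuous_im.comp continuous_snd)).inter
      ((isClosed_le (by fun_prop) continuous_const).inter
      ((isClosed_le (by fun_prop) continuous_const).inter
      (isClosed_le continuous_const (by fun_prop)))))
  obtain ⟨l, hl, hl'⟩ : ∃ l : ℝ, 0 < l ∧ ∀ x ∈ K, 3 * l ≤ dist (ψ x.1) (ψ x.2) := by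
    rcases K.eq_empty_or_nonempty with h0 | h0
    · exact ⟨1, one_pos, fun x hx => by rw [h0] at hx; exact absurd hx (notMem_empty x)⟩
    · have hcont : ContinuousOn (fun x : ℂ × ℂ => dist (ψ x.1) (ψ x.2)) K :=
        continuous_dist.comp_continuousOn
          ((hψ.cont.comp continuousOn_fst fun x hx => hx.1).prodMk
            (hψ.cont.comp continuousOn_snd fun x hx => hx.2.1))
      obtain ⟨x, hx, hmin⟩ := hKc.exists_isMinOn h0 hcont
      have hpos : 0 < dist (ψ x.1) (ψ x.2) := by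
        rw [dist_pos]
        intro he
        have h2 := hψ.inj hx.1 hx.2.1 he
        have h3 := hx.2.2.2.2
        rw [h2, dist_self] at h3
        linarith
      refine ⟨dist (ψ x.1) (ψ x.2) / 3, by positivity, fun x' hx' => ?_⟩
      have := hmin hx'
      simp only [mem_setOf_eq] at this
      linarith
  refine ⟨l, hl, ?_⟩
  filter_upwards [Metric.tendstoUniformlyOn_iff.1 hun l hl] with n hn W hW a ha hR x₀ hx₀ ρ hρ
  have hρ0 : 0 < ρ := h1.trans_le hρ.1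
  have hT : 0 ≤ T := ha.1.trans ha.2
  have hθ₁ : (π / 2 : ℝ) ∈ Ioo 0 π := ⟨by positivity, by linarith⟩
  have hθ₂ : (π / 6 : ℝ) ∈ Ioo 0 π := ⟨by positivity, by linarith⟩
  have him : ∀ θ : ℝ, ((x₀ : ℂ) + ρ * Complex.exp (θ * Complex.I)).im = ρ * Real.sin θ := by
    intro θ
    rw [Complex.add_im, Complex.ofReal_im, zero_add, Complex.im_ofReal_mul,
      Complex.exp_ofReal_mul_I_im]
  have hnorm : ∀ θ : ℝ, ‖(x₀ : ℂ) + ρ * Complex.exp (θ * Complex.I)‖ ≤ X + ρ₂ := by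
    intro θ
    refine (norm_add_le _ _).trans (add_le_add ?_ ?_)
    · rwa [Complex.norm_real, Real.norm_eq_abs]
    · rw [norm_mul, Complex.norm_exp_ofReal_mul_I, mul_one, Complex.norm_real,
        Real.norm_of_nonneg hρ0.le]
      exact hρ.2
  set w₁ : ℂ := (x₀ : ℂ) + ρ * Complex.exp ((π / 2 : ℝ) * Complex.I) with hw₁
  set w₂ : ℂ := (x₀ : ℂ) + ρ * Complex.exp ((π / 6 : ℝ) * Complex.I) with hw₂
  have i1 : w₁.im = ρ := by rw [hw₁, him, Real.sin_pi_div_two, mul_one]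
  have i2 : w₂.im = ρ / 2 := by rw [hw₂, him, Real.sin_pi_div_six]; ring
  have j1 : y ≤ w₁.im := by rw [i1, hy]; linarith [hρ.1]
  have j2 : y ≤ w₂.im := by rw [i2, hy]; linarith [hρ.1]
  have hdist : y ≤ dist w₁ w₂ := by
    have h3 := Complex.abs_im_le_norm (w₁ - w₂)
    rw [Complex.sub_im, i1, i2] at h3
    have h4 := le_abs_self (ρ - ρ / 2)
    rw [dist_eq_norm, hy]
    linarith [hρ.1]
  obtain ⟨b1, b2⟩ := invflow_bounds ha.1 hW hy0 j1
  obtain ⟨c1, c2⟩ := invflow_bounds ha.1 hW hy0 j2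
  have hdd' := invflow_dist ha.1 hW hy0 j1 j2
  set z₁ := invflow W a w₁ with hz₁
  set z₂ := invflow W a w₂ with hz₂
  have hWa := hR a ⟨ha.1, le_rfl⟩
  have hTa : 2 / y * a ≤ 2 / y * T := mul_le_mul_of_nonneg_left ha.2 (by positivity)
  have hz : (z₁, z₂) ∈ K := by
    refine ⟨hy0.le.trans b1, hy0.le.trans c1, ?_, ?_, ?_⟩
    · show ‖z₁‖ ≤ B
      have := hnorm (π / 2 : ℝ)
      rw [← hw₁] at this
      linarith
    · show ‖z₂‖ ≤ B
      have := hnorm (π / 6 : ℝ)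
      rw [← hw₂] at this
      linarith
    · show d ≤ dist z₁ z₂
      have h3 : Real.exp (2 / y ^ 2 * a) ≤ Real.exp (2 / y ^ 2 * T) :=
        Real.exp_le_exp.2 (mul_le_mul_of_nonneg_left ha.2 (by positivity))
      have h4 : y ≤ dist z₁ z₂ * Real.exp (2 / y ^ 2 * T) :=
        hdist.trans (hdd'.trans (mul_le_mul_of_nonneg_left h3 dist_nonneg))
      rw [hdd, Real.exp_neg, ← div_eq_mul_inv, div_le_iff₀ (Real.exp_pos _)]
      exact h4
  have h3 := hl' _ hz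
  simp only at h3
  have h4 : l ≤ dist (ψn n z₁) (ψn n z₂) := by
    have e1 := hn z₁ hz.1
    have e2 := hn z₂ hz.2.1
    have e3 := dist_triangle (ψ z₁) (ψn n z₁) (ψ z₂)
    have e4 := dist_triangle (ψn n z₁) (ψn n z₂) (ψ z₂)
    rw [dist_comm (ψn n z₂)] at e4
    linarith
  have hdf : DifferentiableOn ℂ (fun w => ψn n (invflow W a w)) UH := by
    refine (hd n).comp (fun w hw => ?_) fun w hw => ?_
    · exact (hasDerivAt_invflow ha.1 hW.continuousOn hw).differentiableAt.differentiableWithinAt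
    · exact hw.trans_le (invflow_bounds ha.1 hW hw le_rfl).1
  have h5 := dist_arc_le (f := fun w => ψn n (invflow W a w)) (x₀ := x₀) (ρ := ρ) isOpen_UH hdf
    hρ0 hθ₁ hθ₂ (fun θ hθ => by
      rw [uIcc_of_ge (by linarith)] at hθ
      rw [mem_UH, him]
      exact mul_pos hρ0 (Real.sin_pos_of_pos_of_lt_pi (by linarith [hθ.1]) (by linarith [hθ.2])))
  refine le_trans ?_ h5
  rw [edist_dist]
  exact ENNReal.ofReal_le_ofReal h4

end Vale.Agent.P167.H634.DT
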